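import Vale.Agent.P321.Final

/-!
# P321: worst-case trace reconstruction needs more than polynomially many traces
-/

namespace Vale.Agent.Results.P321.Superpolynomial

open Vale.Agent.P321

/-- For every deletion probability in `(0, 1)` and every exponent `A`, for all large `n` no
randomized estimator using at most `n ^ A` traces recovers every string of length `n` with
probability at least `2/3`. -/
theorem result : ∀ q : ℝ, 0 < q → q < 1 → ∀ A : ℕ, ∃ N : ℕ, ∀ n : ℕ, N ≤ n →
    ∀ m : ℕ, m ≤ n ^ A →
    ∀ est : (Fin m → List Bool) → (Fin n → Bool) → ℝ,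
      (∀ t y, 0 ≤ est t y) → (∀ t, ∑ y, est t y ≤ 1) →
      ∃ x : Fin n → Bool, success q est x < 2 / 3 :=
  fun _ h0 h1 A => superpolynomial h0 h1 A

end Vale.Agent.Results.P321.Superpolynomial
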